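import Mathlib

/-!
# Isometric linear embedding into `ℓ_∞` and Lipschitz extension
-/

open scoped ENNReal

namespace Vale.Agent.P249.H65

/-- The index set: the closed unit ball of the dual space. -/
abbrev DB (F : Type) [NormedAddCommGroup F] [NormedSpace ℝ F] : Type :=
  {ψ : StrongDual ℝ F // ‖ψ‖ ≤ 1}

variable {F : Type} [NormedAddCommGroup F] [NormedSpace ℝ F]

theorem DB_le (ψ : DB F) (v : F) : ‖ψ.1 v‖ ≤ ‖v‖ := by
  refine (ψ.1.le_opNorm v).trans ?_
  have := mul_le_mul_of_nonneg_right ψ.2 (norm_nonneg v)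
  linarith

/-- The evaluation embedding. -/
noncomputable def toLinf (F : Type) [NormedAddCommGroup F] [NormedSpace ℝ F] :
    F →ₗ[ℝ] lp (fun _ : DB F => ℝ) ∞ where
  toFun v := ⟨fun ψ => ψ.1 v, memℓp_infty ⟨‖v‖, by
    rintro _ ⟨ψ, rfl⟩
    exact DB_le ψ v⟩⟩
  map_add' v w := by
    ext ψ
    simp
    rfl
  map_smul' c v := by
    ext ψ
    simp

theorem norm_toLinf (v : F) : ‖toLinf F v‖ = ‖v‖ := by
  apply le_antisymm
  · refine lp.norm_le_of_forall_le (norm_nonneg v) fun ψ => ?_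
    exact DB_le ψ v
  · obtain ⟨ψ, h1, h2⟩ := exists_dual_vector'' ℝ v
    have h3 := lp.norm_apply_le_norm (E := fun _ : DB F => ℝ) ENNReal.top_ne_zero (toLinf F v)
      ⟨ψ, h1⟩
    have h4 : (toLinf F v) ⟨ψ, h1⟩ = ψ v := rfl
    rw [h4, h2] at h3
    simpa using h3

/-- A map which is Lipschitz on `X` extends, after an isometric linear embedding of its target,
with the same constant. -/
theorem exists_ext {E : Type} [NormedAddCommGroup E] {X : Set E} {f : E → F} {D : ℝ}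
    (hD : 0 ≤ D) (hf : ∀ x ∈ X, ∀ y ∈ X, ‖f x - f y‖ ≤ D * ‖x - y‖) :
    ∃ f' : E → lp (fun _ : DB F => ℝ) ∞, (∀ x y, ‖f' x - f' y‖ ≤ D * ‖x - y‖) ∧
      ∀ x ∈ X, f' x = toLinf F (f x) := by
  have h1 : LipschitzOnWith D.toNNReal (fun x => toLinf F (f x)) X := by
    refine LipschitzOnWith.of_dist_le_mul fun x hx y hy => ?_
    rw [dist_eq_norm, dist_eq_norm, ← map_sub, norm_toLinf, Real.coe_toNNReal D hD]
    exact hf x hx y hy
  obtain ⟨g, hg, he⟩ := h1.extend_lp_infty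
  refine ⟨g, fun x y => ?_, fun x hx => (he hx).symm⟩
  have h2 := hg.dist_le_mul x y
  rwa [dist_eq_norm, dist_eq_norm, Real.coe_toNNReal D hD] at h2

end Vale.Agent.P249.H65
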