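import Vale.Agent.P249.H65.Pts
import Vale.Agent.P249.H65.Linf

/-!
# The abstract linearisation theorem
-/

open scoped ENNReal

namespace Vale.Agent.P249.H65

variable {ι : Type} [Fintype ι] [DecidableEq ι] {α : Type}
variable {E : Type} [NormedAddCommGroup E] [NormedSpace ℝ E]
variable {F G : Type*} [NormedAddCommGroup F] [NormedSpace ℝ F]
  [NormedAddCommGroup G] [NormedSpace ℝ G]
variable {φ : List α → (ι → ℝ) →ₗ[ℝ] E} {r L R R₀ M : ℕ} {x₀ : ι → ℤ}

theorem bavg_map (J : F →ₗ[ℝ] G) (R : ℕ) (h : (ι → ℤ) → F) :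
    J (bavg R h) = bavg R fun a => J (h a) := by
  simp [bavg, map_smul, map_sum]

theorem bavg_congr {R : ℕ} {h g : (ι → ℤ) → F} (hg : ∀ a ∈ box ι R, h a = g a) :
    bavg R h = bavg R g := by
  unfold bavg
  rw [Finset.sum_congr rfl hg]

theorem GA_transfer (J : F →ₗ[ℝ] G) {f : E → F} {f' : E → G} {X : Set E}
    (hf : ∀ x ∈ X, f' x = J (f x)) (P : List α) (y : E)
    (h : ∀ x ∈ Base φ r L R R₀ x₀ P, x + y ∈ X) :
    GA φ r L R (gtop φ r L R₀ x₀ f') P y = J (GA φ r L R (gtop φ r L R₀ x₀ f) P y) := by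
  induction P generalizing y with
  | nil =>
    simp only [GA, gtop]
    rw [bavg_map]
    refine bavg_congr fun b hb => ?_
    rw [add_comm y]
    exact hf _ (h _ ⟨b, hb, rfl⟩)
  | cons a P ih =>
    simp only [GA]
    rw [bavg_map]
    refine bavg_congr fun b hb => ?_
    refine ih _ fun x hx => ?_
    have h1 := h _ ⟨x, hx, b, hb, rfl⟩
    convert h1 using 1; abel

theorem TT_transfer [Fintype α] (J : F →ₗ[ℝ] G) {f : E → F} {f' : E → G}
    (hf : ∀ x ∈ XX φ r L M R, f' x = J (f x))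
    (hM : ∀ i, |x₀ i| + R₀ + R ≤ M) (P : List α) (hP : P.length ≤ L)
    {v : ι → ℤ} (hv : ∀ i, |v i| ≤ R) :
    TT φ r L R (gtop φ r L R₀ x₀ f') P v = J (TT φ r L R (gtop φ r L R₀ x₀ f) P v) := by
  classical
  have h1 : GA φ r L R (gtop φ r L R₀ x₀ f') P (lam r L P • φ P (ic v))
      = J (GA φ r L R (gtop φ r L R₀ x₀ f) P (lam r L P • φ P (ic v))) := by
    refine GA_transfer J (X := {x | x ∈ XX φ r L M R}) hf P _ fun x hx => ?_
    exact Finset.mem_biUnion.2 ⟨P, mem_words.2 hP, Base_sub hM P hx hv⟩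
  have h2 : GA φ r L R (gtop φ r L R₀ x₀ f') P 0 = J (GA φ r L R (gtop φ r L R₀ x₀ f) P 0) := by
    refine GA_transfer J (X := {x | x ∈ XX φ r L M R}) hf P _ fun x hx => ?_
    have h := Base_sub hM P hx (v := 0) (fun i => by simp)
    simp only [ic_zero, map_zero, smul_zero] at h
    exact Finset.mem_biUnion.2 ⟨P, mem_words.2 hP, h⟩
  rw [TT, TT, h1, h2, map_smul, map_sub]

theorem TL_transfer [Fintype α] (J : F →ₗ[ℝ] G) {f : E → F} {f' : E → G} (hR : 1 ≤ R)
    (hf : ∀ x ∈ XX φ r L M R, f' x = J (f x))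
    (hM : ∀ i, |x₀ i| + R₀ + R ≤ M) (P : List α) (hP : P.length ≤ L) (v : ι → ℝ) :
    TL φ r L R (gtop φ r L R₀ x₀ f') P v = J (TL φ r L R (gtop φ r L R₀ x₀ f) P v) := by
  rw [TL_apply, TL_apply, map_sum]
  refine Finset.sum_congr rfl fun i _ => ?_
  rw [map_smul, TT_transfer J hf hM P hP (v := Pi.single i 1) fun l => ?_]
  by_cases hl : l = i
  · subst hl; simp; exact_mod_cast hR
  · simp [hl]

section
variable {F : Type} [NormedAddCommGroup F] [NormedSpace ℝ F] {f : E → F} {D : ℝ}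

/-- The Lipschitz bound of the linear maps, real coefficients. -/
theorem TL_le [Fintype α] (hr : 0 < r) (hR : 0 < R) (hR₀ : R ≤ R₀) (hD : 0 ≤ D)
    (hφ : ∀ P i, ‖φ P (Pi.single i 1)‖ ≤ 1)
    (hf : ∀ x ∈ XX φ r L M R, ∀ y ∈ XX φ r L M R, ‖f x - f y‖ ≤ D * ‖x - y‖)
    (hM : ∀ i, |x₀ i| + R₀ + R ≤ M) (P : List α) (hP : P.length ≤ L)
    {n : ℕ} (hn : 0 < n) (hnR : n + 1 ≤ R) (v : ι → ℝ) :
    ‖TL φ r L R (gtop φ r L R₀ x₀ f) P v‖ ≤ D * ‖φ P v‖
      + (D * Fintype.card ι + 4 * D * ((n : ℝ) + Fintype.card ι) ^ 2 / R) / n * l1 v := by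
  classical
  obtain ⟨f', hf', hff⟩ := exists_ext (X := {x | x ∈ XX φ r L M R}) hD
    (fun x hx y hy => hf x hx y hy)
  have hR00 : 0 < R₀ := lt_of_lt_of_le hR hR₀
  have hn' : (0 : ℝ) < n := by exact_mod_cast hn
  have hR' : (0 : ℝ) < R := by exact_mod_cast hR
  have hg := gtop_lip (φ := φ) (r := r) (L := L) (x₀ := x₀) hR00 hf'
  have ht := gtop_topAvg (φ := φ) (r := r) (L := L) (R₀ := R₀) (x₀ := x₀) hf'
  -- it suffices to treat `l1 v = 1`
  have key : ∀ u : ι → ℝ, l1 u ≤ 1 → ‖TL φ r L R (gtop φ r L R₀ x₀ f) P u‖ ≤ D * ‖φ P u‖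
      + (D * Fintype.card ι + 4 * D * ((n : ℝ) + Fintype.card ι) ^ 2 / R) / n := by
    intro u hu
    set w : ι → ℤ := fun i => round ((n : ℝ) * u i) with hw
    set e : ι → ℝ := (n : ℝ) • u - ic w with he
    have he1 : ∀ i, |e i| ≤ 1 / 2 := fun i => by
      have := abs_sub_round ((n : ℝ) * u i)
      simpa [he, hw, ic] using this
    have hel : l1 e ≤ Fintype.card ι / 2 := by
      unfold l1
      refine (Finset.sum_le_card_nsmul _ _ (1 / 2 : ℝ) fun i _ => he1 i).trans (le_of_eq ?_)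
      rw [nsmul_eq_mul, Finset.card_univ]; ring
    have hui : ∀ i, |u i| ≤ 1 := fun i => by
      refine le_trans ?_ hu
      unfold l1
      exact Finset.single_le_sum (f := fun j => |u j|) (fun j _ => abs_nonneg _)
        (Finset.mem_univ i)
    have hwl : l1 (ic w) ≤ n + Fintype.card ι := by
      have h1 : ic w = (n : ℝ) • u + (-1 : ℝ) • e := by
        rw [he]; module
      rw [h1]
      refine (l1_add_le _ _).trans ?_
      rw [l1_smul, l1_smul, abs_neg, abs_one, one_mul, abs_of_pos hn']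
      have h2 : (n : ℝ) * l1 u ≤ n := by
        have := mul_le_mul_of_nonneg_left hu hn'.le
        linarith
      have h3 : (0 : ℝ) ≤ Fintype.card ι := Nat.cast_nonneg _
      linarith
    have hwR : ∀ i, |w i| ≤ R := fun i => by
      have h1 : |(w i : ℝ)| ≤ n + 1 := by
        have h2 : (w i : ℝ) = n * u i - e i := by simp [he, ic]
        rw [h2]
        refine (abs_sub _ _).trans ?_
        rw [abs_mul, abs_of_pos hn']
        have h3 := mul_le_mul_of_nonneg_left (hui i) hn'.le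
        have h4 := he1 i
        linarith
      have h5 : |w i| ≤ (n : ℤ) + 1 := by exact_mod_cast h1
      have h6 : ((n : ℤ) + 1) ≤ R := by exact_mod_cast hnR
      linarith
    -- the integer part
    have h1 := TT_le (f := f) hr hR hR00 hf hM P hP hwR
    have h2 := TT_sub_TL (K := 1) hr hR hD zero_le_one hg ht hR₀ hφ P w
    rw [TT_transfer (toLinf F) hff hM P hP hwR, TL_transfer (toLinf F) hR hff hM P hP,
      ← map_sub, norm_toLinf] at h2
    have h3 : ‖TL φ r L R (gtop φ r L R₀ x₀ f) P (ic w)‖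
        ≤ D * ‖φ P (ic w)‖ + 4 * D * 1 * (l1 (ic w)) ^ 2 / R := by
      have h4 := norm_sub_norm_le (TL φ r L R (gtop φ r L R₀ x₀ f) P (ic w))
        (TT φ r L R (gtop φ r L R₀ x₀ f) P w)
      rw [norm_sub_rev] at h2
      linarith
    -- the remainder
    have h5 := norm_TL_le (K := 1) (L := L) (r := r) hr hR hD hg hφ P e
    rw [TL_transfer (toLinf F) hR hff hM P hP, norm_toLinf] at h5
    have h6 : ‖φ P e‖ ≤ 1 * l1 e := norm_apply_le_l1 (hφ P) e
    have h7 : TL φ r L R (gtop φ r L R₀ x₀ f) P u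
        = (n : ℝ)⁻¹ • (TL φ r L R (gtop φ r L R₀ x₀ f) P (ic w)
          + TL φ r L R (gtop φ r L R₀ x₀ f) P e) := by
      rw [← map_add, ← map_smul]
      congr 1
      rw [he, add_sub_cancel, smul_smul, inv_mul_cancel₀ hn'.ne', one_smul]
    have h8 : ‖φ P (ic w)‖ ≤ n * ‖φ P u‖ + ‖φ P e‖ := by
      have h9 : ic w = (n : ℝ) • u - e := by rw [he]; abel
      rw [h9, map_sub, map_smul]
      refine (norm_sub_le _ _).trans ?_
      rw [norm_smul, Real.norm_eq_abs, abs_of_pos hn']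
    have h10 : (l1 (ic w)) ^ 2 ≤ ((n : ℝ) + Fintype.card ι) ^ 2 :=
      pow_le_pow_left₀ (l1_nonneg _) hwl 2
    rw [h7, norm_smul, norm_inv, Real.norm_eq_abs, abs_of_pos hn', inv_mul_le_iff₀ hn']
    have h11 : 4 * D * 1 * (l1 (ic w)) ^ 2 / R ≤ 4 * D * ((n : ℝ) + Fintype.card ι) ^ 2 / R := by
      refine div_le_div_of_nonneg_right ?_ hR'.le
      have : 0 ≤ 4 * D := by linarith
      nlinarith [mul_le_mul_of_nonneg_left h10 this]
    have h12 : (n : ℝ) * (D * ‖φ P u‖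
        + (D * Fintype.card ι + 4 * D * ((n : ℝ) + Fintype.card ι) ^ 2 / R) / n)
        = D * (n * ‖φ P u‖) + (D * Fintype.card ι + 4 * D * ((n : ℝ) + Fintype.card ι) ^ 2 / R) := by
      field_simp
    rw [h12]
    have h13 : ‖φ P e‖ ≤ Fintype.card ι / 2 := by linarith
    have h14 : D * ‖φ P (ic w)‖ ≤ D * (n * ‖φ P u‖) + D * (Fintype.card ι / 2) := by
      rw [← mul_add]
      exact mul_le_mul_of_nonneg_left (by linarith) hD
    have h15 : D * 1 * l1 e ≤ D * (Fintype.card ι / 2) := by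
      rw [mul_one]; exact mul_le_mul_of_nonneg_left hel hD
    have h16 := norm_add_le (TL φ r L R (gtop φ r L R₀ x₀ f) P (ic w))
      (TL φ r L R (gtop φ r L R₀ x₀ f) P e)
    linarith
  rcases (l1_nonneg v).eq_or_lt with h0 | h0
  · have hv : v = 0 := by
      funext i
      have h1 : |v i| ≤ l1 v := by
        unfold l1
        exact Finset.single_le_sum (f := fun j => |v j|) (fun j _ => abs_nonneg _)
          (Finset.mem_univ i)
      rw [← h0] at h1
      simpa using h1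
    rw [hv]
    simp [l1]
  · have h1 := key ((l1 v)⁻¹ • v) (by
      rw [l1_smul, abs_of_pos (inv_pos.2 h0), inv_mul_cancel₀ h0.ne'])
    rw [map_smul, map_smul, norm_smul, norm_smul, Real.norm_eq_abs, abs_of_pos (inv_pos.2 h0)] at h1
    have h2 := mul_le_mul_of_nonneg_left h1 h0.le
    rw [← mul_assoc, mul_inv_cancel₀ h0.ne', one_mul] at h2
    refine h2.trans (le_of_eq ?_)
    field_simp

/-- Consistency of the linear maps. -/
theorem TL_cons [Fintype α] (hr : 0 < r) (hR : 2 ≤ R) (hR₀ : R ≤ R₀) (hD : 0 ≤ D)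
    (hφ : ∀ P i, ‖φ P (Pi.single i 1)‖ ≤ 1)
    (hf : ∀ x ∈ XX φ r L M R, ∀ y ∈ XX φ r L M R, ‖f x - f y‖ ≤ D * ‖x - y‖)
    (hM : ∀ i, |x₀ i| + R₀ + R ≤ M) (P : List α) (a : α) (hP : P.length + 1 ≤ L)
    (v v' : ι → ℤ) (hv : φ (a :: P) (ic v') = φ P (ic v)) (h2 : l1 (ic v) ≤ 2)
    (h2' : l1 (ic v') ≤ 2) :
    ‖TL φ r L R (gtop φ r L R₀ x₀ f) (a :: P) (ic v')
      - TL φ r L R (gtop φ r L R₀ x₀ f) P (ic v)‖
      ≤ 8 * D * r / R + 4 * D * Fintype.card ι / r + 32 * D / R := by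
  classical
  obtain ⟨f', hf', hff⟩ := exists_ext (X := {x | x ∈ XX φ r L M R}) hD
    (fun x hx y hy => hf x hx y hy)
  have hR0 : 0 < R := by omega
  have hR00 : 0 < R₀ := lt_of_lt_of_le hR0 hR₀
  have hR' : (0 : ℝ) < R := by exact_mod_cast hR0
  have hr' : (0 : ℝ) < r := by exact_mod_cast hr
  have hg := gtop_lip (φ := φ) (r := r) (L := L) (x₀ := x₀) hR00 hf'
  have ht := gtop_topAvg (φ := φ) (r := r) (L := L) (R₀ := R₀) (x₀ := x₀) hf'
  have h3 := TT_cons (K := 1) hr hR0 hD hg ht hR₀ hφ P a hP v v' hv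
  have h4 := TT_sub_TL (K := 1) hr hR0 hD zero_le_one hg ht hR₀ hφ (a :: P) v'
  have h5 := TT_sub_TL (K := 1) hr hR0 hD zero_le_one hg ht hR₀ hφ P v
  have h6 : ‖TL φ r L R (gtop φ r L R₀ x₀ f) (a :: P) (ic v')
      - TL φ r L R (gtop φ r L R₀ x₀ f) P (ic v)‖
      = ‖TL φ r L R (gtop φ r L R₀ x₀ f') (a :: P) (ic v')
      - TL φ r L R (gtop φ r L R₀ x₀ f') P (ic v)‖ := by
    rw [TL_transfer (toLinf F) hR0 hff hM (a :: P) (by simpa using hP),
      TL_transfer (toLinf F) hR0 hff hM P (by omega), ← map_sub, norm_toLinf]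
  rw [h6]
  set A' := TL φ r L R (gtop φ r L R₀ x₀ f') (a :: P) (ic v')
  set A := TL φ r L R (gtop φ r L R₀ x₀ f') P (ic v)
  set B' := TT φ r L R (gtop φ r L R₀ x₀ f') (a :: P) v'
  set B := TT φ r L R (gtop φ r L R₀ x₀ f') P v
  have h7 : A' - A = (B' - B) - (B' - A') + (B - A) := by abel
  rw [h7]
  refine ((norm_add_le _ _).trans (add_le_add ((norm_sub_le _ _).trans
    (add_le_add h3 h4)) h5)).trans ?_
  have h8 : ‖φ P (ic v)‖ ≤ 2 := by
    refine (norm_apply_le_l1 (hφ P) _).trans ?_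
    linarith
  have h9 := l1_nonneg (ic v)
  have h9' := l1_nonneg (ic v')
  have h10 : 2 * (D * ‖φ P (ic v)‖) * (r * l1 (ic v')) / R ≤ 8 * D * r / R := by
    refine div_le_div_of_nonneg_right ?_ hR'.le
    have h11 : D * ‖φ P (ic v)‖ ≤ D * 2 := mul_le_mul_of_nonneg_left h8 hD
    have h12 : (r : ℝ) * l1 (ic v') ≤ r * 2 := mul_le_mul_of_nonneg_left h2' hr'.le
    calc 2 * (D * ‖φ P (ic v)‖) * (r * l1 (ic v')) ≤ 2 * (D * 2) * (r * 2) := by
          refine mul_le_mul (by linarith) h12 (by positivity) (by positivity)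
      _ = 8 * D * r := by ring
  have h13 : 2 * (D * (1 * Fintype.card ι)) * l1 (ic v) / r ≤ 4 * D * Fintype.card ι / r := by
    refine div_le_div_of_nonneg_right ?_ hr'.le
    have h14 : (0 : ℝ) ≤ D * Fintype.card ι := by positivity
    nlinarith [mul_le_mul_of_nonneg_left h2 h14]
  have h15 : 4 * D * 1 * (l1 (ic v')) ^ 2 / R ≤ 16 * D / R := by
    refine div_le_div_of_nonneg_right ?_ hR'.le
    have : (l1 (ic v')) ^ 2 ≤ 4 := by nlinarith
    nlinarith [mul_le_mul_of_nonneg_left this hD]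
  have h16 : 4 * D * 1 * (l1 (ic v)) ^ 2 / R ≤ 16 * D / R := by
    refine div_le_div_of_nonneg_right ?_ hR'.le
    have : (l1 (ic v)) ^ 2 ≤ 4 := by nlinarith
    nlinarith [mul_le_mul_of_nonneg_left this hD]
  have h17 : 32 * D / R = 16 * D / R + 16 * D / R := by ring
  rw [h17]
  linarith

/-- The linear map of the root and the averages of differences. -/
theorem TL_top [Fintype α] (hr : 0 < r) (hR : 0 < R) (hR₀ : R ≤ R₀) (hD : 0 ≤ D)
    (hφ : ∀ P i, ‖φ P (Pi.single i 1)‖ ≤ 1)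
    (hf : ∀ x ∈ XX φ r L M R, ∀ y ∈ XX φ r L M R, ‖f x - f y‖ ≤ D * ‖x - y‖)
    (hM : ∀ i, |x₀ i| + R₀ + R ≤ M) (v : ι → ℤ) (hvR : ∀ i, |v i| ≤ R) :
    ‖(bavg R₀ fun a => (lam r L ([] : List α))⁻¹ •
        (f (lam r L ([] : List α) • φ [] (ic (x₀ + a + v)))
          - f (lam r L ([] : List α) • φ [] (ic (x₀ + a)))))
      - TL φ r L R (gtop φ r L R₀ x₀ f) [] (ic v)‖ ≤ 4 * D * (l1 (ic v)) ^ 2 / R := by
  classical
  obtain ⟨f', hf', hff⟩ := exists_ext (X := {x | x ∈ XX φ r L M R}) hD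
    (fun x hx y hy => hf x hx y hy)
  have hR00 : 0 < R₀ := lt_of_lt_of_le hR hR₀
  have hg := gtop_lip (φ := φ) (r := r) (L := L) (x₀ := x₀) hR00 hf'
  have ht := gtop_topAvg (φ := φ) (r := r) (L := L) (R₀ := R₀) (x₀ := x₀) hf'
  have h5 := TT_sub_TL (K := 1) hr hR hD zero_le_one hg ht hR₀ hφ [] v
  rw [TT_transfer (toLinf F) hff hM [] (Nat.zero_le _) hvR,
    TL_transfer (toLinf F) hR hff hM [] (Nat.zero_le _), ← map_sub, norm_toLinf] at h5
  have h6 : (bavg R₀ fun a => (lam r L ([] : List α))⁻¹ •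
        (f (lam r L ([] : List α) • φ [] (ic (x₀ + a + v)))
          - f (lam r L ([] : List α) • φ [] (ic (x₀ + a)))))
      = TT φ r L R (gtop φ r L R₀ x₀ f) [] v := by
    rw [bavg_smul, bavg_sub, TT]
    simp only [GA, gtop, zero_add]
    congr 2
    refine bavg_congr fun a _ => ?_
    rw [ic_add, map_add, smul_add, add_comm]
  rw [h6]
  simpa using h5

end

end Vale.Agent.P249.H65
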