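import Mathlib

/-!
# Averages over boxes of the lattice `ι → ℤ` and their (near) invariance under shifts
-/

namespace Vale.Agent.P249.H65

variable {ι : Type*} [Fintype ι] [DecidableEq ι]
variable {F : Type*} [NormedAddCommGroup F] [NormedSpace ℝ F]

/-- The box `{0, …, R - 1}^ι`. -/
noncomputable def box (ι : Type*) [Fintype ι] [DecidableEq ι] (R : ℕ) : Finset (ι → ℤ) :=
  Fintype.piFinset fun _ => Finset.Ico (0 : ℤ) R

theorem mem_box {R : ℕ} {a : ι → ℤ} : a ∈ box ι R ↔ ∀ i, 0 ≤ a i ∧ a i < R := by
  simp [box]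

theorem card_box (R : ℕ) : (box ι R).card = R ^ Fintype.card ι := by
  simp [box]

/-- The average of `h` over the box of side `R`. -/
noncomputable def bavg (R : ℕ) (h : (ι → ℤ) → F) : F :=
  ((R : ℝ) ^ Fintype.card ι)⁻¹ • ∑ a ∈ box ι R, h a

theorem bavg_add (R : ℕ) (h g : (ι → ℤ) → F) :
    bavg R (fun a => h a + g a) = bavg R h + bavg R g := by
  simp [bavg, Finset.sum_add_distrib]

theorem bavg_sub (R : ℕ) (h g : (ι → ℤ) → F) :
    bavg R (fun a => h a - g a) = bavg R h - bavg R g := by
  simp [bavg, Finset.sum_sub_distrib, smul_sub]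

theorem bavg_smul (R : ℕ) (c : ℝ) (h : (ι → ℤ) → F) :
    bavg R (fun a => c • h a) = c • bavg R h := by
  simp only [bavg, ← Finset.smul_sum]
  rw [smul_comm]

theorem bavg_sum {κ : Type*} (s : Finset κ) (R : ℕ) (h : κ → (ι → ℤ) → F) :
    bavg R (fun a => ∑ j ∈ s, h j a) = ∑ j ∈ s, bavg R (h j) := by
  simp only [bavg]
  rw [Finset.sum_comm, Finset.smul_sum]

theorem bavg_const {R : ℕ} (hR : 0 < R) (c : F) : bavg (ι := ι) R (fun _ => c) = c := by
  have h : ((R : ℝ) ^ Fintype.card ι) ≠ 0 := by positivity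
  simp only [bavg, Finset.sum_const, card_box]
  rw [← Nat.cast_smul_eq_nsmul ℝ, smul_smul, Nat.cast_pow, inv_mul_cancel₀ h, one_smul]

theorem norm_bavg_le_avg (R : ℕ) (h : (ι → ℤ) → F) :
    ‖bavg R h‖ ≤ bavg R (fun a => ‖h a‖) := by
  simp only [bavg, smul_eq_mul]
  rw [norm_smul]
  have h0 : ‖((R : ℝ) ^ Fintype.card ι)⁻¹‖ = ((R : ℝ) ^ Fintype.card ι)⁻¹ := by
    rw [Real.norm_eq_abs, abs_of_nonneg (by positivity)]
  rw [h0]
  exact mul_le_mul_of_nonneg_left (norm_sum_le _ _) (by positivity)

theorem bavg_mono (R : ℕ) {h g : (ι → ℤ) → ℝ} (hg : ∀ a ∈ box ι R, h a ≤ g a) :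
    bavg R h ≤ bavg R g := by
  simp only [bavg, smul_eq_mul]
  exact mul_le_mul_of_nonneg_left (Finset.sum_le_sum hg) (by positivity)

theorem bavg_nonneg (R : ℕ) {h : (ι → ℤ) → ℝ} (hg : ∀ a ∈ box ι R, 0 ≤ h a) :
    0 ≤ bavg R h := by
  simp only [bavg, smul_eq_mul]
  exact mul_nonneg (by positivity) (Finset.sum_nonneg hg)

theorem norm_bavg_le {R : ℕ} (hR : 0 < R) {h : (ι → ℤ) → F} {C : ℝ}
    (hC : ∀ a ∈ box ι R, ‖h a‖ ≤ C) : ‖bavg R h‖ ≤ C := by
  refine (norm_bavg_le_avg R h).trans ((bavg_mono R hC).trans ?_)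
  rw [bavg_const hR]

theorem card_slice {R : ℕ} (i : ι) (c : ℤ) :
    (R : ℝ) * (Fintype.piFinset (Function.update (fun _ : ι => Finset.Ico (0 : ℤ) R) i {c})).card
      = (R : ℝ) ^ Fintype.card ι := by
  classical
  rw [Fintype.card_piFinset]
  have h1 : ∏ j, (Function.update (fun _ : ι => Finset.Ico (0 : ℤ) R) i {c} j).card
      = ∏ j, Function.update (fun _ : ι => R) i 1 j := by
    refine Finset.prod_congr rfl fun j _ => ?_
    by_cases hj : j = i
    · subst hj; simp
    · simp [Function.update_of_ne hj]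
  rw [h1, Finset.prod_update_of_mem (Finset.mem_univ i)]
  simp only [Finset.prod_const, one_mul]
  rw [Finset.card_sdiff_of_subset (Finset.subset_univ _), Finset.card_univ, Finset.card_singleton]
  have hc : 0 < Fintype.card ι := Fintype.card_pos_iff.2 ⟨i⟩
  push_cast
  rw [← pow_succ']
  congr 1
  omega

/-- Shifting the argument by one unit vector. -/
theorem bavg_shift_single {R : ℕ} (hR : 0 < R) {h : (ι → ℤ) → F} {C : ℝ}
    (hC : ∀ a, ‖h a‖ ≤ C) (i : ι) :
    ‖bavg R (fun a => h (a + Pi.single i 1)) - bavg R h‖ ≤ 2 * C / R := by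
  classical
  have hC0 : 0 ≤ C := (norm_nonneg _).trans (hC 0)
  set e : ι → ℤ := Pi.single i 1 with he
  set S := box ι R with hS
  set S' := S.map (addRightEmbedding e) with hS'
  have hsum : ∑ a ∈ S, h (a + e) = ∑ a ∈ S', h a := by
    rw [hS', Finset.sum_map]; rfl
  have hdiff : ∑ a ∈ S, h (a + e) - ∑ a ∈ S, h a = ∑ a ∈ S' \ S, h a - ∑ a ∈ S \ S', h a := by
    rw [hsum, ← Finset.sum_sdiff_sub_sum_sdiff]
  set A := Fintype.piFinset (Function.update (fun _ : ι => Finset.Ico (0 : ℤ) R) i {(R : ℤ)})
  set A' := Fintype.piFinset (Function.update (fun _ : ι => Finset.Ico (0 : ℤ) R) i {(0 : ℤ)})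
  have hA : S' \ S ⊆ A := by
    intro a ha
    rw [Finset.mem_sdiff, hS', Finset.mem_map] at ha
    obtain ⟨⟨b, hb, hba⟩, ha2⟩ := ha
    rw [hS, mem_box] at hb ha2
    have hba' : a = b + e := hba.symm
    rw [Fintype.mem_piFinset]
    intro j
    by_cases hj : j = i
    · subst hj
      simp only [Function.update_self, Finset.mem_singleton]
      by_contra hne
      apply ha2
      intro l
      by_cases hl : l = j
      · subst hl
        have := hb l
        have h2 : a l = b l + 1 := by rw [hba', he]; simp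
        omega
      · have := hb l
        have h2 : a l = b l := by rw [hba', he]; simp [hl]
        omega
    · rw [Function.update_of_ne hj, Finset.mem_Ico]
      have h2 : a j = b j := by rw [hba', he]; simp [hj]
      rw [h2]
      exact hb j
  have hA' : S \ S' ⊆ A' := by
    intro a ha
    rw [Finset.mem_sdiff, hS', Finset.mem_map] at ha
    obtain ⟨ha1, ha2⟩ := ha
    rw [hS, mem_box] at ha1
    rw [Fintype.mem_piFinset]
    intro j
    by_cases hj : j = i
    · subst hj
      simp only [Function.update_self, Finset.mem_singleton]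
      by_contra hne
      apply ha2
      refine ⟨a - e, ?_, by simp [addRightEmbedding]⟩
      rw [hS, mem_box]
      intro l
      by_cases hl : l = j
      · subst hl
        have := ha1 l
        have h2 : (a - e) l = a l - 1 := by rw [he]; simp
        omega
      · have := ha1 l
        have h2 : (a - e) l = a l := by rw [he]; simp [hl]
        omega
    · rw [Function.update_of_ne hj, Finset.mem_Ico]
      exact ha1 j
  have hb1 : ‖∑ a ∈ S' \ S, h a‖ ≤ A.card * C := by
    refine (norm_sum_le _ _).trans ((Finset.sum_le_card_nsmul _ _ C fun a _ => hC a).trans ?_)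
    rw [nsmul_eq_mul]
    exact mul_le_mul_of_nonneg_right (by exact_mod_cast Finset.card_le_card hA) hC0
  have hb2 : ‖∑ a ∈ S \ S', h a‖ ≤ A'.card * C := by
    refine (norm_sum_le _ _).trans ((Finset.sum_le_card_nsmul _ _ C fun a _ => hC a).trans ?_)
    rw [nsmul_eq_mul]
    exact mul_le_mul_of_nonneg_right (by exact_mod_cast Finset.card_le_card hA') hC0
  have hR' : (0 : ℝ) < R := by exact_mod_cast hR
  have hk : (0 : ℝ) < (R : ℝ) ^ Fintype.card ι := by positivity
  have e1 : bavg R (fun a => h (a + e)) - bavg R h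
      = ((R : ℝ) ^ Fintype.card ι)⁻¹ • (∑ a ∈ S' \ S, h a - ∑ a ∈ S \ S', h a) := by
    rw [← hdiff, smul_sub]; rfl
  rw [e1, norm_smul, Real.norm_eq_abs, abs_of_nonneg (by positivity)]
  have h3 := (norm_sub_le (∑ a ∈ S' \ S, h a) (∑ a ∈ S \ S', h a)).trans (add_le_add hb1 hb2)
  have hc1 : (R : ℝ) * A.card = (R : ℝ) ^ Fintype.card ι := card_slice i _
  have hc2 : (R : ℝ) * A'.card = (R : ℝ) ^ Fintype.card ι := card_slice i _
  rw [inv_mul_le_iff₀ hk, ← mul_div_assoc, le_div_iff₀ hR']
  nlinarith [mul_le_mul_of_nonneg_right h3 hR'.le]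

theorem bavg_shift_single_neg {R : ℕ} (hR : 0 < R) {h : (ι → ℤ) → F} {C : ℝ}
    (hC : ∀ a, ‖h a‖ ≤ C) (i : ι) :
    ‖bavg R (fun a => h (a - Pi.single i 1)) - bavg R h‖ ≤ 2 * C / R := by
  have h1 := bavg_shift_single hR (h := fun a => h (a - Pi.single i 1)) (fun a => hC _) i
  simp only [add_sub_cancel_right] at h1
  rwa [norm_sub_rev] at h1

/-- Near invariance of box averages under shifts. -/
theorem bavg_shift {R : ℕ} (hR : 0 < R) {h : (ι → ℤ) → F} {C : ℝ}
    (hC : ∀ a, ‖h a‖ ≤ C) (v : ι → ℤ) :
    ‖bavg R (fun a => h (a + v)) - bavg R h‖ ≤ 2 * C * (∑ i, |(v i : ℝ)|) / R := by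
  classical
  have hC0 : 0 ≤ C := (norm_nonneg _).trans (hC 0)
  have hR' : (0 : ℝ) < R := by exact_mod_cast hR
  obtain ⟨n, hn⟩ : ∃ n : ℕ, n = ∑ i, (v i).natAbs := ⟨_, rfl⟩
  have key : ∀ n : ℕ, ∀ v : ι → ℤ, n = ∑ i, (v i).natAbs →
      ‖bavg R (fun a => h (a + v)) - bavg R h‖ ≤ 2 * C * n / R := by
    intro n
    induction n with
    | zero =>
      intro v hv
      have hv0 : v = 0 := by
        funext i
        have := (Finset.sum_eq_zero_iff.1 hv.symm) i (Finset.mem_univ i)
        simpa using this
      simp [hv0]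
    | succ n ih =>
      intro v hv
      obtain ⟨i, -, hi⟩ : ∃ i ∈ Finset.univ, (v i).natAbs ≠ 0 := by
        by_contra hne
        push Not at hne
        rw [Finset.sum_eq_zero hne] at hv
        omega
      have hi' : v i ≠ 0 := by simpa using hi
      rcases lt_or_gt_of_ne hi' with hneg | hpos
      · set w : ι → ℤ := v + Pi.single i 1 with hw
        have hvw : v = w - Pi.single i 1 := by rw [hw]; simp
        have hwn : n = ∑ j, (w j).natAbs := by
          have h1 : ∑ j, (v j).natAbs = (v i).natAbs + ∑ j ∈ Finset.univ.erase i, (v j).natAbs :=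
            (Finset.add_sum_erase _ _ (Finset.mem_univ i)).symm
          have h2 : ∑ j, (w j).natAbs = (w i).natAbs + ∑ j ∈ Finset.univ.erase i, (w j).natAbs :=
            (Finset.add_sum_erase _ _ (Finset.mem_univ i)).symm
          have h3 : ∑ j ∈ Finset.univ.erase i, (w j).natAbs
              = ∑ j ∈ Finset.univ.erase i, (v j).natAbs := by
            refine Finset.sum_congr rfl fun j hj => ?_
            have : j ≠ i := Finset.ne_of_mem_erase hj
            simp [hw, this]
          have h4 : w i = v i + 1 := by simp [hw]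
          rw [h2, h3, h4]
          rw [h1] at hv
          omega
        have h5 := ih w hwn
        have h6 := bavg_shift_single_neg hR (h := fun a => h (a + w)) (fun a => hC _) i
        have h7 : (fun a : ι → ℤ => h (a - Pi.single i 1 + w)) = fun a => h (a + v) := by
          funext a; rw [hvw]; congr 1; abel
        simp only [h7] at h6
        have h8 := norm_add_le (bavg R (fun a => h (a + v)) - bavg R fun a => h (a + w))
          ((bavg R fun a => h (a + w)) - bavg R h)
        rw [sub_add_sub_cancel] at h8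
        refine h8.trans ((add_le_add h6 h5).trans (le_of_eq ?_))
        push_cast
        field_simp
        ring
      · set w : ι → ℤ := v - Pi.single i 1 with hw
        have hvw : v = w + Pi.single i 1 := by rw [hw]; simp
        have hwn : n = ∑ j, (w j).natAbs := by
          have h1 : ∑ j, (v j).natAbs = (v i).natAbs + ∑ j ∈ Finset.univ.erase i, (v j).natAbs :=
            (Finset.add_sum_erase _ _ (Finset.mem_univ i)).symm
          have h2 : ∑ j, (w j).natAbs = (w i).natAbs + ∑ j ∈ Finset.univ.erase i, (w j).natAbs :=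
            (Finset.add_sum_erase _ _ (Finset.mem_univ i)).symm
          have h3 : ∑ j ∈ Finset.univ.erase i, (w j).natAbs
              = ∑ j ∈ Finset.univ.erase i, (v j).natAbs := by
            refine Finset.sum_congr rfl fun j hj => ?_
            have : j ≠ i := Finset.ne_of_mem_erase hj
            simp [hw, this]
          have h4 : w i = v i - 1 := by simp [hw]
          rw [h2, h3, h4]
          rw [h1] at hv
          omega
        have h5 := ih w hwn
        have h6 := bavg_shift_single hR (h := fun a => h (a + w)) (fun a => hC _) i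
        have h7 : (fun a : ι → ℤ => h (a + Pi.single i 1 + w)) = fun a => h (a + v) := by
          funext a; rw [hvw]; congr 1; abel
        simp only [h7] at h6
        have h8 := norm_add_le (bavg R (fun a => h (a + v)) - bavg R fun a => h (a + w))
          ((bavg R fun a => h (a + w)) - bavg R h)
        rw [sub_add_sub_cancel] at h8
        refine h8.trans ((add_le_add h6 h5).trans (le_of_eq ?_))
        push_cast
        field_simp
        ring
  have h9 := key n v hn
  have h10 : (n : ℝ) = ∑ i, |(v i : ℝ)| := by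
    rw [hn]
    push_cast
    refine Finset.sum_congr rfl fun i _ => ?_
    rw [Nat.cast_natAbs, Int.cast_abs]
  rwa [h10] at h9

/-- The shift lemma when the bound of `h` is only known near the box. -/
theorem bavg_shift_of_range {R n : ℕ} (hR : 0 < R) {h : (ι → ℤ) → F} {C : ℝ} (hC0 : 0 ≤ C)
    (hC : ∀ a : ι → ℤ, (∀ i, |a i| ≤ R + n) → ‖h a‖ ≤ C) (v : ι → ℤ) (hv : ∀ i, |v i| ≤ n) :
    ‖bavg R (fun a => h (a + v)) - bavg R h‖ ≤ 2 * C * (∑ i, |(v i : ℝ)|) / R := by
  classical
  set h' : (ι → ℤ) → F := fun a => if ∀ i, |a i| ≤ R + n then h a else 0 with hh'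
  have h1 := bavg_shift hR (h := h') (C := C) (fun a => by
    by_cases ha : ∀ i, |a i| ≤ R + n
    · simp only [hh', ha, implies_true, if_true]; exact hC a ha
    · simp only [hh', ha, if_false, norm_zero]; exact hC0) v
  have h2 : bavg R (fun a => h' (a + v)) = bavg R (fun a => h (a + v)) := by
    unfold bavg
    congr 1
    refine Finset.sum_congr rfl fun a ha => ?_
    have h3 : ∀ i, |(a + v) i| ≤ R + n := fun i => by
      have h4 := mem_box.1 ha i
      have h5 := abs_add_le (a i) (v i)
      have h6 : |a i| ≤ R := by rw [abs_of_nonneg h4.1]; exact h4.2.le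
      have h7 := hv i
      simp only [Pi.add_apply]
      linarith
    simp only [hh', h3, implies_true, if_true]
  have h3 : bavg R h' = bavg R h := by
    unfold bavg
    congr 1
    refine Finset.sum_congr rfl fun a ha => ?_
    have h3 : ∀ i, |a i| ≤ R + n := fun i => by
      have h4 := mem_box.1 ha i
      rw [abs_of_nonneg h4.1]
      have h7 := (abs_nonneg (v i)).trans (hv i)
      linarith
    simp only [hh', h3, implies_true, if_true]
  rwa [h2, h3] at h1

end Vale.Agent.P249.H65
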