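import Vale.Agent.P249.H65.Conv

/-!
# Consistency of the averaged derivatives of a node and its children
-/

namespace Vale.Agent.P249.H65

variable {ι : Type*} [Fintype ι] [DecidableEq ι] {α : Type*}
variable {E : Type*} [NormedAddCommGroup E] [NormedSpace ℝ E]
variable {F : Type*} [NormedAddCommGroup F] [NormedSpace ℝ F]
variable {φ : List α → (ι → ℝ) →ₗ[ℝ] E} {r L R : ℕ} {g : E → F} {D' : ℝ}

omit [DecidableEq ι] in
theorem l1_ic_smul (n : ℕ) (v : ι → ℤ) : l1 (ic ((n : ℤ) • v)) = n * l1 (ic v) := by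
  have h : ic ((n : ℤ) • v) = (n : ℝ) • ic v := by
    funext i; simp [ic]
  rw [h, l1_smul, abs_of_nonneg (Nat.cast_nonneg n)]

/-- The difference over `n` steps of a child node is `n` times the difference over one step. -/
theorem GA_steps {R₀ : ℕ} (hR : 0 < R) (hD : 0 ≤ D')
    (hg : ∀ x y, ‖g x - g y‖ ≤ D' * ‖x - y‖)
    (ht : TopAvg φ r L R₀ D' g) (hRR : R ≤ R₀) (P : List α) (v : ι → ℤ) (n : ℕ) :
    ‖(GA φ r L R g P ((n : ℝ) • lam r L P • φ P (ic v)) - GA φ r L R g P 0)
      - (n : ℝ) • (GA φ r L R g P (lam r L P • φ P (ic v)) - GA φ r L R g P 0)‖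
      ≤ n * (2 * (D' * ‖lam r L P • φ P (ic v)‖) * (n * l1 (ic v)) / R) := by
  set e := lam r L P • φ P (ic v) with he
  induction n with
  | zero => simp
  | succ n ih =>
    have hstep := GA_shift hR hD hg ht hRR P e 0 ((n : ℤ) • v)
    have h1 : lam r L P • φ P (ic ((n : ℤ) • v)) = (n : ℝ) • e := by
      have h : ic ((n : ℤ) • v) = (n : ℝ) • ic v := by funext i; simp [ic]
      rw [h, map_smul, he, smul_comm]
    rw [h1, l1_ic_smul, add_zero, sub_zero] at hstep
    have h2 : ((n + 1 : ℕ) : ℝ) • e = (n : ℝ) • e + e := by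
      rw [Nat.cast_succ, add_smul, one_smul]
    rw [h2]
    have h3 : (GA φ r L R g P ((n : ℝ) • e + e) - GA φ r L R g P 0)
        - ((n + 1 : ℕ) : ℝ) • (GA φ r L R g P e - GA φ r L R g P 0)
        = ((GA φ r L R g P ((n : ℝ) • e + e) - GA φ r L R g P ((n : ℝ) • e))
          - (GA φ r L R g P e - GA φ r L R g P 0))
        + ((GA φ r L R g P ((n : ℝ) • e) - GA φ r L R g P 0)
          - (n : ℝ) • (GA φ r L R g P e - GA φ r L R g P 0)) := by
      rw [Nat.cast_succ, add_smul, one_smul]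
      abel
    rw [h3]
    refine (norm_add_le _ _).trans ((add_le_add hstep ih).trans ?_)
    have hR' : (0 : ℝ) < R := by exact_mod_cast hR
    have h4 : 0 ≤ 2 * (D' * ‖e‖) * l1 (ic v) := by
      have := l1_nonneg (ic v)
      positivity
    have h5 : (n : ℝ) ≤ (n + 1 : ℕ) := by push_cast; linarith
    have h6 : 2 * (D' * ‖e‖) * (n * l1 (ic v)) / R + n * (2 * (D' * ‖e‖) * (n * l1 (ic v)) / R)
        = (n + 1 : ℕ) * (2 * (D' * ‖e‖) * (n * l1 (ic v)) / R) := by
      push_cast; ring
    rw [h6]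
    refine mul_le_mul_of_nonneg_left ?_ (Nat.cast_nonneg _)
    refine div_le_div_of_nonneg_right ?_ hR'.le
    have h7 : 2 * (D' * ‖e‖) * (n * l1 (ic v)) = (2 * (D' * ‖e‖) * l1 (ic v)) * n := by ring
    have h8 : 2 * (D' * ‖e‖) * ((n + 1 : ℕ) * l1 (ic v))
        = (2 * (D' * ‖e‖) * l1 (ic v)) * (n + 1 : ℕ) := by ring
    rw [h7, h8]
    exact mul_le_mul_of_nonneg_left h5 h4

/-- Consistency of a node and its child on common vectors. -/
theorem TT_cons {R₀ : ℕ} {K : ℝ} (hr : 0 < r) (hR : 0 < R) (hD : 0 ≤ D')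
    (hg : ∀ x y, ‖g x - g y‖ ≤ D' * ‖x - y‖)
    (ht : TopAvg φ r L R₀ D' g) (hRR : R ≤ R₀)
    (hφ : ∀ P i, ‖φ P (Pi.single i 1)‖ ≤ K)
    (P : List α) (a : α) (hP : P.length + 1 ≤ L) (v v' : ι → ℤ)
    (hv : φ (a :: P) (ic v') = φ P (ic v)) :
    ‖TT φ r L R g (a :: P) v' - TT φ r L R g P v‖
      ≤ 2 * (D' * ‖φ P (ic v)‖) * (r * l1 (ic v')) / R
        + 2 * (D' * (K * Fintype.card ι)) * l1 (ic v) / r := by
  have hl : 0 < lam r L P := lam_pos hr P
  have hl' : 0 < lam r L (a :: P) := lam_pos hr _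
  have hr' : (0 : ℝ) < r := by exact_mod_cast hr
  have hR' : (0 : ℝ) < R := by exact_mod_cast hR
  have hlam := lam_cons (r := r) a hP
  set e := φ P (ic v) with he
  have hK : 0 ≤ K ∨ IsEmpty ι := by
    rcases isEmpty_or_nonempty ι with h | h
    · exact Or.inr h
    · exact Or.inl ((norm_nonneg _).trans (hφ P (Classical.arbitrary ι)))
  -- `r` steps at the child
  have h1 := GA_steps hR hD hg ht hRR (a :: P) v' r
  rw [hv, smul_smul, ← hlam] at h1
  -- removal of the shift by the box of the child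
  have h2 : ‖(GA φ r L R g (a :: P) (lam r L P • e) - GA φ r L R g (a :: P) 0)
      - (GA φ r L R g P (lam r L P • e) - GA φ r L R g P 0)‖
      ≤ 2 * (D' * (lam r L (a :: P) * (R * (K * Fintype.card ι)))) * l1 (ic v) / R := by
    have h3 : (GA φ r L R g (a :: P) (lam r L P • e) - GA φ r L R g (a :: P) 0)
        - (GA φ r L R g P (lam r L P • e) - GA φ r L R g P 0)
        = bavg R fun b =>
          (GA φ r L R g P (lam r L P • e + lam r L (a :: P) • φ (a :: P) (ic b))
            - GA φ r L R g P (lam r L P • e + 0))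
          - (GA φ r L R g P (lam r L (a :: P) • φ (a :: P) (ic b)) - GA φ r L R g P 0) := by
      rw [bavg_sub, bavg_sub, bavg_sub, bavg_const hR, bavg_const hR]
      simp only [GA, add_zero, zero_add]
      abel
    rw [h3]
    refine norm_bavg_le hR fun b hb => ?_
    have h4 := GA_shift hR hD hg ht hRR P (lam r L (a :: P) • φ (a :: P) (ic b)) 0 v
    rw [← he, sub_zero, norm_smul, Real.norm_eq_abs, abs_of_pos hl'] at h4
    refine h4.trans ?_
    have h5 : ‖φ (a :: P) (ic b)‖ ≤ R * (K * Fintype.card ι) := by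
      refine (norm_apply_le_l1 (hφ (a :: P)) _).trans ?_
      have h6 : l1 (ic b) ≤ R * Fintype.card ι := by
        unfold l1
        refine (Finset.sum_le_card_nsmul _ _ (R : ℝ) fun i _ => ?_).trans (le_of_eq ?_)
        · have := mem_box.1 hb i
          have h7 : (0 : ℝ) ≤ (b i : ℝ) := by exact_mod_cast this.1
          have h8 : (b i : ℝ) ≤ (R : ℝ) := by exact_mod_cast this.2.le
          simp only [ic]
          rw [abs_of_nonneg h7]
          exact h8
        · rw [nsmul_eq_mul, Finset.card_univ, mul_comm]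
      rcases hK with hK | hK
      · calc K * l1 (ic b) ≤ K * (R * Fintype.card ι) := mul_le_mul_of_nonneg_left h6 hK
          _ = R * (K * Fintype.card ι) := by ring
      · have : Fintype.card ι = 0 := Fintype.card_eq_zero
        simp [l1, this]
    have h9 := l1_nonneg (ic v)
    refine div_le_div_of_nonneg_right ?_ hR'.le
    refine mul_le_mul_of_nonneg_right ?_ h9
    refine mul_le_mul_of_nonneg_left ?_ (by norm_num)
    refine mul_le_mul_of_nonneg_left ?_ hD
    exact mul_le_mul_of_nonneg_left h5 hl'.le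
  -- assembly
  have h10 : TT φ r L R g (a :: P) v' - TT φ r L R g P v
      = (lam r L P)⁻¹ • (((GA φ r L R g (a :: P) (lam r L P • e) - GA φ r L R g (a :: P) 0)
          - (GA φ r L R g P (lam r L P • e) - GA φ r L R g P 0))
        - ((GA φ r L R g (a :: P) (lam r L P • e) - GA φ r L R g (a :: P) 0)
          - (r : ℝ) • (GA φ r L R g (a :: P) (lam r L (a :: P) • e)
            - GA φ r L R g (a :: P) 0))) := by
    unfold TT
    rw [hv, hlam, mul_inv_rev]
    simp only [smul_sub, smul_smul]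
    have h11 : (lam r L (a :: P))⁻¹ * (r : ℝ)⁻¹ * (r : ℝ) = (lam r L (a :: P))⁻¹ := by
      field_simp
    rw [h11, ← he]
    abel
  rw [h10, norm_smul, norm_inv, Real.norm_eq_abs, abs_of_pos hl, inv_mul_le_iff₀ hl]
  refine (norm_sub_le _ _).trans ((add_le_add h2 h1).trans (le_of_eq ?_))
  rw [norm_smul, Real.norm_eq_abs, abs_of_pos hl', hlam]
  field_simp
  ring

end Vale.Agent.P249.H65
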