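import Vale.Agent.P249.H65.Box

/-!
# Averaged derivatives along a tree of lattices

`φ P` is a linear map of the coefficient space `ι → ℝ` attached to the node `P` of a tree of words.
-/

namespace Vale.Agent.P249.H65

variable {ι : Type*} [Fintype ι] [DecidableEq ι] {α : Type*}
variable {E : Type*} [NormedAddCommGroup E] [NormedSpace ℝ E]
variable {F : Type*} [NormedAddCommGroup F] [NormedSpace ℝ F]

/-- Integer coefficient vectors as real ones. -/
def ic (v : ι → ℤ) : ι → ℝ := fun i => (v i : ℝ)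

omit [Fintype ι] [DecidableEq ι] in
@[simp] theorem ic_zero : ic (0 : ι → ℤ) = 0 := by funext i; simp [ic]

omit [Fintype ι] [DecidableEq ι] in
theorem ic_add (v w : ι → ℤ) : ic (v + w) = ic v + ic w := by funext i; simp [ic]

omit [Fintype ι] [DecidableEq ι] in
theorem ic_sub (v w : ι → ℤ) : ic (v - w) = ic v - ic w := by funext i; simp [ic]

omit [Fintype ι] [DecidableEq ι] in
theorem ic_neg (v : ι → ℤ) : ic (-v) = - ic v := by funext i; simp [ic]

omit [Fintype ι] in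
theorem ic_single (i : ι) (c : ℤ) : ic (Pi.single i c) = Pi.single i (c : ℝ) := by
  funext j
  by_cases h : j = i
  · subst h; simp [ic]
  · simp [ic, h]

/-- The `ℓ_1` norm of a coefficient vector. -/
def l1 (v : ι → ℝ) : ℝ := ∑ i, |v i|

omit [DecidableEq ι] in
theorem l1_nonneg (v : ι → ℝ) : 0 ≤ l1 v := Finset.sum_nonneg fun _ _ => abs_nonneg _

omit [DecidableEq ι] in
theorem l1_add_le (v w : ι → ℝ) : l1 (v + w) ≤ l1 v + l1 w := by
  unfold l1
  rw [← Finset.sum_add_distrib]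
  exact Finset.sum_le_sum fun i _ => abs_add_le _ _

omit [DecidableEq ι] in
theorem l1_smul (c : ℝ) (v : ι → ℝ) : l1 (c • v) = |c| * l1 v := by
  unfold l1
  rw [Finset.mul_sum]
  exact Finset.sum_congr rfl fun i _ => by rw [Pi.smul_apply, smul_eq_mul, abs_mul]

/-- A linear map whose values on the unit vectors have norm at most `K`. -/
theorem norm_apply_le_l1 {φ : (ι → ℝ) →ₗ[ℝ] E} {K : ℝ}
    (hφ : ∀ i, ‖φ (Pi.single i 1)‖ ≤ K) (v : ι → ℝ) : ‖φ v‖ ≤ K * l1 v := by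
  have h1 : v = ∑ i, v i • (Pi.single i (1 : ℝ) : ι → ℝ) := by
    funext j
    simp [Finset.sum_apply, Pi.single_apply]
  rw [h1, map_sum, l1, Finset.mul_sum, ← h1]
  refine (norm_sum_le _ _).trans (Finset.sum_le_sum fun i _ => ?_)
  rw [map_smul, norm_smul, Real.norm_eq_abs, mul_comm]
  exact mul_le_mul_of_nonneg_right (hφ i) (abs_nonneg _)

/-- The scale of the node `P`. -/
noncomputable def lam (r L : ℕ) (P : List α) : ℝ := (r : ℝ) ^ (L - P.length)

theorem lam_pos {r L : ℕ} (hr : 0 < r) (P : List α) : 0 < lam r L P := by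
  unfold lam; positivity

theorem lam_cons {r L : ℕ} (a : α) {P : List α} (hP : P.length + 1 ≤ L) :
    lam r L P = r * lam r L (a :: P) := by
  unfold lam
  rw [List.length_cons, ← pow_succ']
  congr 1
  omega

/-- Iterated averages of the function `g` over the boxes attached to the ancestors of `P`. -/
noncomputable def GA (φ : List α → (ι → ℝ) →ₗ[ℝ] E) (r L R : ℕ) (g : E → F) :
    List α → E → F
  | [] => g
  | a :: P => fun y => bavg R fun b => GA φ r L R g P (y + lam r L (a :: P) • φ (a :: P) (ic b))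

/-- The averaged difference quotient at the node `P`. -/
noncomputable def TT (φ : List α → (ι → ℝ) →ₗ[ℝ] E) (r L R : ℕ) (g : E → F)
    (P : List α) (v : ι → ℤ) : F :=
  (lam r L P)⁻¹ • (GA φ r L R g P (lam r L P • φ P (ic v)) - GA φ r L R g P 0)

section
variable {φ : List α → (ι → ℝ) →ₗ[ℝ] E} {r L R : ℕ} {g : E → F} {D' : ℝ}

theorem GA_lip (hR : 0 < R) (hg : ∀ x y, ‖g x - g y‖ ≤ D' * ‖x - y‖) (P : List α) (x y : E) :
    ‖GA φ r L R g P x - GA φ r L R g P y‖ ≤ D' * ‖x - y‖ := by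
  induction P generalizing x y with
  | nil => exact hg x y
  | cons a P ih =>
    simp only [GA]
    rw [← bavg_sub]
    refine norm_bavg_le hR fun b _ => (ih _ _).trans (le_of_eq ?_)
    rw [add_sub_add_right_eq_sub]

/-- `g` is an average over a box of side `R₀` in the directions of `φ []`. -/
def TopAvg (φ : List α → (ι → ℝ) →ₗ[ℝ] E) (r L R₀ : ℕ) (D' : ℝ) (g : E → F) : Prop :=
  ∃ H : E → F, (∀ x y, ‖H x - H y‖ ≤ D' * ‖x - y‖) ∧
    ∀ y, g y = bavg R₀ fun b => H (y + lam r L ([] : List α) • φ [] (ic b))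

theorem GA_form {R₀ : ℕ} (hR : 0 < R) (hg : ∀ x y, ‖g x - g y‖ ≤ D' * ‖x - y‖)
    (ht : TopAvg φ r L R₀ D' g) (hRR : R ≤ R₀) (P : List α) :
    ∃ R₁ : ℕ, R ≤ R₁ ∧ ∃ H : E → F, (∀ x y, ‖H x - H y‖ ≤ D' * ‖x - y‖) ∧
      ∀ y, GA φ r L R g P y = bavg R₁ fun b => H (y + lam r L P • φ P (ic b)) := by
  cases P with
  | nil =>
    obtain ⟨H, h1, h2⟩ := ht
    exact ⟨R₀, hRR, H, h1, h2⟩
  | cons a P =>
    exact ⟨R, le_rfl, GA φ r L R g P, fun x y => GA_lip hR hg P x y, fun y => rfl⟩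

/-- Shifting the argument of `GA P` in the directions of `φ P`. -/
theorem GA_shift {R₀ : ℕ} (hR : 0 < R) (hD : 0 ≤ D')
    (hg : ∀ x y, ‖g x - g y‖ ≤ D' * ‖x - y‖)
    (ht : TopAvg φ r L R₀ D' g) (hRR : R ≤ R₀) (P : List α) (y z : E) (v : ι → ℤ) :
    ‖(GA φ r L R g P (lam r L P • φ P (ic v) + y) - GA φ r L R g P (lam r L P • φ P (ic v) + z))
      - (GA φ r L R g P y - GA φ r L R g P z)‖ ≤ 2 * (D' * ‖y - z‖) * l1 (ic v) / R := by
  obtain ⟨R₁, hR₁, H, hH, hf⟩ := GA_form hR hg ht hRR P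
  have hR1 : 0 < R₁ := lt_of_lt_of_le hR hR₁
  rw [hf, hf, hf, hf, ← bavg_sub, ← bavg_sub]
  have h1 := bavg_shift hR1 (h := fun b : ι → ℤ => H (y + lam r L P • φ P (ic b))
    - H (z + lam r L P • φ P (ic b))) (C := D' * ‖y - z‖)
    (fun a => (hH _ _).trans (le_of_eq (by rw [add_sub_add_right_eq_sub]))) v
  have h2 : (fun b : ι → ℤ => H (lam r L P • φ P (ic v) + y + lam r L P • φ P (ic b))
      - H (lam r L P • φ P (ic v) + z + lam r L P • φ P (ic b)))
      = fun b => H (y + lam r L P • φ P (ic (b + v))) - H (z + lam r L P • φ P (ic (b + v))) := by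
    funext b
    rw [ic_add, map_add, smul_add]
    congr 2 <;> abel
  rw [h2]
  refine h1.trans ?_
  have h3 : (0 : ℝ) < R := by exact_mod_cast hR
  have h4 : (R : ℝ) ≤ R₁ := by exact_mod_cast hR₁
  have h5 : 0 ≤ 2 * (D' * ‖y - z‖) * ∑ i, |(v i : ℝ)| :=
    mul_nonneg (by positivity) (Finset.sum_nonneg fun _ _ => abs_nonneg _)
  exact div_le_div_of_nonneg_left h5 h3 h4

theorem TT_zero (P : List α) : TT φ r L R g P 0 = 0 := by
  simp [TT]

/-- Approximate additivity. -/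
theorem TT_add {R₀ : ℕ} (hr : 0 < r) (hR : 0 < R) (hD : 0 ≤ D')
    (hg : ∀ x y, ‖g x - g y‖ ≤ D' * ‖x - y‖)
    (ht : TopAvg φ r L R₀ D' g) (hRR : R ≤ R₀) (P : List α) (v w : ι → ℤ) :
    ‖TT φ r L R g P (v + w) - TT φ r L R g P v - TT φ r L R g P w‖
      ≤ 2 * (D' * ‖φ P (ic w)‖) * l1 (ic v) / R := by
  have hl : 0 < lam r L P := lam_pos hr P
  have h1 := GA_shift hR hD hg ht hRR P (lam r L P • φ P (ic w)) 0 v
  have h2 : TT φ r L R g P (v + w) - TT φ r L R g P v - TT φ r L R g P w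
      = (lam r L P)⁻¹ • ((GA φ r L R g P (lam r L P • φ P (ic v) + lam r L P • φ P (ic w))
        - GA φ r L R g P (lam r L P • φ P (ic v) + 0))
        - (GA φ r L R g P (lam r L P • φ P (ic w)) - GA φ r L R g P 0)) := by
    unfold TT
    rw [← smul_sub, ← smul_sub, ic_add, map_add, smul_add, add_zero]
    congr 1
    abel
  rw [h2, norm_smul, norm_inv, Real.norm_eq_abs, abs_of_pos hl, inv_mul_le_iff₀ hl]
  refine h1.trans (le_of_eq ?_)
  rw [sub_zero, norm_smul, Real.norm_eq_abs, abs_of_pos hl]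
  ring

theorem TT_lip (hr : 0 < r) (hR : 0 < R) (hg : ∀ x y, ‖g x - g y‖ ≤ D' * ‖x - y‖)
    (P : List α) (v : ι → ℤ) : ‖TT φ r L R g P v‖ ≤ D' * ‖φ P (ic v)‖ := by
  have hl : 0 < lam r L P := lam_pos hr P
  have h1 := GA_lip (φ := φ) (r := r) (L := L) hR hg P (lam r L P • φ P (ic v)) 0
  rw [sub_zero, norm_smul, Real.norm_eq_abs, abs_of_pos hl] at h1
  rw [TT, norm_smul, norm_inv, Real.norm_eq_abs, abs_of_pos hl, inv_mul_le_iff₀ hl]
  linarith

end

end Vale.Agent.P249.H65
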