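import Vale.Agent.P249.H65.Cons

/-!
# The linear map attached to a node
-/

namespace Vale.Agent.P249.H65

variable {ι : Type*} [Fintype ι] [DecidableEq ι] {α : Type*}
variable {E : Type*} [NormedAddCommGroup E] [NormedSpace ℝ E]
variable {F : Type*} [NormedAddCommGroup F] [NormedSpace ℝ F]
variable {φ : List α → (ι → ℝ) →ₗ[ℝ] E} {r L R : ℕ} {g : E → F} {D' : ℝ}

/-- The linear map with the values of `TT` on the unit vectors. -/
noncomputable def TL (φ : List α → (ι → ℝ) →ₗ[ℝ] E) (r L R : ℕ) (g : E → F)
    (P : List α) : (ι → ℝ) →ₗ[ℝ] F :=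
  Fintype.linearCombination ℝ fun i => TT φ r L R g P (Pi.single i 1)

theorem TL_apply (P : List α) (v : ι → ℝ) :
    TL φ r L R g P v = ∑ i, v i • TT φ r L R g P (Pi.single i 1) := by
  simp [TL, Fintype.linearCombination_apply]

theorem TL_single (P : List α) (i : ι) :
    TL φ r L R g P (Pi.single i 1) = TT φ r L R g P (Pi.single i 1) := by
  rw [TL_apply]
  simp [Pi.single_apply]

omit [DecidableEq ι] in
theorem l1_ic_nat (v : ι → ℤ) : l1 (ic v) = ((∑ i, (v i).natAbs : ℕ) : ℝ) := by
  unfold l1 ic
  push_cast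
  refine Finset.sum_congr rfl fun i _ => ?_
  rw [Nat.cast_natAbs, Int.cast_abs]

theorem norm_TL_le {K : ℝ} (hr : 0 < r) (hR : 0 < R) (hD : 0 ≤ D')
    (hg : ∀ x y, ‖g x - g y‖ ≤ D' * ‖x - y‖)
    (hφ : ∀ P i, ‖φ P (Pi.single i 1)‖ ≤ K) (P : List α) (v : ι → ℝ) :
    ‖TL φ r L R g P v‖ ≤ D' * K * l1 v := by
  refine norm_apply_le_l1 (fun i => ?_) v
  rw [TL_single]
  refine (TT_lip hr hR hg P _).trans ?_
  have h : ic (Pi.single i (1 : ℤ)) = (Pi.single i (1 : ℝ) : ι → ℝ) := by
    rw [ic_single]; simp
  rw [h]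
  exact mul_le_mul_of_nonneg_left (hφ P i) hD

/-- `TT` is close to the linear map `TL`. -/
theorem TT_sub_TL {R₀ : ℕ} {K : ℝ} (hr : 0 < r) (hR : 0 < R) (hD : 0 ≤ D') (hK : 0 ≤ K)
    (hg : ∀ x y, ‖g x - g y‖ ≤ D' * ‖x - y‖)
    (ht : TopAvg φ r L R₀ D' g) (hRR : R ≤ R₀)
    (hφ : ∀ P i, ‖φ P (Pi.single i 1)‖ ≤ K) (P : List α) (v : ι → ℤ) :
    ‖TT φ r L R g P v - TL φ r L R g P (ic v)‖ ≤ 4 * D' * K * (l1 (ic v)) ^ 2 / R := by
  have hR' : (0 : ℝ) < R := by exact_mod_cast hR
  have hs : ∀ i : ι, ic (Pi.single i (1 : ℤ)) = (Pi.single i (1 : ℝ) : ι → ℝ) := fun i => by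
    rw [ic_single]; simp
  have key : ∀ n : ℕ, ∀ v : ι → ℤ, n = ∑ i, (v i).natAbs →
      ‖TT φ r L R g P v - TL φ r L R g P (ic v)‖ ≤ 4 * D' * K * (n : ℝ) ^ 2 / R := by
    intro n
    induction n with
    | zero =>
      intro v hv
      have hv0 : v = 0 := by
        funext i
        have := (Finset.sum_eq_zero_iff.1 hv.symm) i (Finset.mem_univ i)
        simpa using this
      simp [hv0, TT_zero]
    | succ n ih =>
      intro v hv
      obtain ⟨i, -, hi⟩ : ∃ i ∈ Finset.univ, (v i).natAbs ≠ 0 := by
        by_contra hne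
        push Not at hne
        rw [Finset.sum_eq_zero hne] at hv
        omega
      have hi' : v i ≠ 0 := by simpa using hi
      -- the unit step `v = w + s`, `s = ± e_i`
      obtain ⟨w, s, hvw, hwn, hs1, hTs⟩ : ∃ w s : ι → ℤ, v = w + s ∧ n = ∑ j, (w j).natAbs ∧
          ‖φ P (ic s)‖ ≤ K ∧
          ‖TT φ r L R g P s - TL φ r L R g P (ic s)‖ ≤ 2 * D' * K / R := by
        rcases lt_or_gt_of_ne hi' with hneg | hpos
        · refine ⟨v + Pi.single i 1, - Pi.single i 1, by simp, ?_, ?_, ?_⟩
          · have h1 : ∑ j, (v j).natAbs = (v i).natAbs + ∑ j ∈ Finset.univ.erase i, (v j).natAbs :=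
              (Finset.add_sum_erase _ _ (Finset.mem_univ i)).symm
            have h2 : ∑ j, ((v + Pi.single i 1 : ι → ℤ) j).natAbs = ((v + Pi.single i 1 : ι → ℤ) i).natAbs
                + ∑ j ∈ Finset.univ.erase i, ((v + Pi.single i 1 : ι → ℤ) j).natAbs :=
              (Finset.add_sum_erase _ _ (Finset.mem_univ i)).symm
            have h3 : ∑ j ∈ Finset.univ.erase i, ((v + Pi.single i 1 : ι → ℤ) j).natAbs
                = ∑ j ∈ Finset.univ.erase i, (v j).natAbs := by
              refine Finset.sum_congr rfl fun j hj => ?_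
              have : j ≠ i := Finset.ne_of_mem_erase hj
              simp [this]
            have h4 : (v + Pi.single i 1 : ι → ℤ) i = v i + 1 := by simp
            rw [h2, h3, h4]
            rw [h1] at hv
            omega
          · rw [ic_neg, map_neg, norm_neg, hs]; exact hφ P i
          · have h5 := TT_add hr hR hD hg ht hRR P (Pi.single i 1) (-Pi.single i 1)
            rw [add_neg_cancel, TT_zero, ic_neg, map_neg, norm_neg, hs] at h5
            have h6 : l1 (Pi.single i (1 : ℝ) : ι → ℝ) = 1 := by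
              unfold l1
              simp [Pi.single_apply, abs_ite]
            rw [h6, mul_one] at h5
            have h7 : TT φ r L R g P (-Pi.single i 1) - TL φ r L R g P (ic (-Pi.single i 1))
                = - (0 - TT φ r L R g P (Pi.single i 1) - TT φ r L R g P (-Pi.single i 1)) := by
              rw [ic_neg, map_neg, hs, TL_single]; abel
            rw [h7, norm_neg]
            refine h5.trans ?_
            refine div_le_div_of_nonneg_right ?_ hR'.le
            have := mul_le_mul_of_nonneg_left (hφ P i) hD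
            linarith
        · refine ⟨v - Pi.single i 1, Pi.single i 1, by simp, ?_, ?_, ?_⟩
          · have h1 : ∑ j, (v j).natAbs = (v i).natAbs + ∑ j ∈ Finset.univ.erase i, (v j).natAbs :=
              (Finset.add_sum_erase _ _ (Finset.mem_univ i)).symm
            have h2 : ∑ j, ((v - Pi.single i 1 : ι → ℤ) j).natAbs = ((v - Pi.single i 1 : ι → ℤ) i).natAbs
                + ∑ j ∈ Finset.univ.erase i, ((v - Pi.single i 1 : ι → ℤ) j).natAbs :=
              (Finset.add_sum_erase _ _ (Finset.mem_univ i)).symm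
            have h3 : ∑ j ∈ Finset.univ.erase i, ((v - Pi.single i 1 : ι → ℤ) j).natAbs
                = ∑ j ∈ Finset.univ.erase i, (v j).natAbs := by
              refine Finset.sum_congr rfl fun j hj => ?_
              have : j ≠ i := Finset.ne_of_mem_erase hj
              simp [this]
            have h4 : (v - Pi.single i 1 : ι → ℤ) i = v i - 1 := by simp
            rw [h2, h3, h4]
            rw [h1] at hv
            omega
          · rw [hs]; exact hφ P i
          · rw [hs, TL_single, sub_self, norm_zero]; positivity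
      have h8 := TT_add hr hR hD hg ht hRR P w s
      rw [← hvw] at h8
      have h9 := ih w hwn
      have h10 : TT φ r L R g P v - TL φ r L R g P (ic v)
          = (TT φ r L R g P v - TT φ r L R g P w - TT φ r L R g P s)
            + (TT φ r L R g P w - TL φ r L R g P (ic w))
            + (TT φ r L R g P s - TL φ r L R g P (ic s)) := by
        have h11 : ic v = ic w + ic s := by rw [hvw, ic_add]
        rw [h11, map_add]; abel
      rw [h10]
      refine (norm_add_le _ _).trans ((add_le_add ((norm_add_le _ _).trans (add_le_add h8 h9))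
        hTs).trans ?_)
      rw [l1_ic_nat w, ← hwn]
      have h12 : 2 * (D' * ‖φ P (ic s)‖) * (n : ℝ) / R ≤ 2 * (D' * K) * n / R := by
        refine div_le_div_of_nonneg_right ?_ hR'.le
        refine mul_le_mul_of_nonneg_right ?_ (Nat.cast_nonneg n)
        have := mul_le_mul_of_nonneg_left hs1 hD
        linarith
      have h13 : 2 * (D' * K) * n / R + 4 * D' * K * (n : ℝ) ^ 2 / R + 2 * D' * K / R
          ≤ 4 * D' * K * ((n + 1 : ℕ) : ℝ) ^ 2 / R := by
        rw [← add_div, ← add_div]
        refine div_le_div_of_nonneg_right ?_ hR'.le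
        push_cast
        have h14 : 0 ≤ D' * K := mul_nonneg hD hK
        have h15 : (0 : ℝ) ≤ n := Nat.cast_nonneg n
        nlinarith [mul_nonneg h14 h15]
      linarith
  have h := key _ v rfl
  rwa [← l1_ic_nat] at h

end Vale.Agent.P249.H65
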