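import Vale.Agent.P249.H65.Lin

/-!
# The finite point set and the Lipschitz bound of the averaged derivatives
-/

namespace Vale.Agent.P249.H65

variable {ι : Type*} [Fintype ι] [DecidableEq ι] {α : Type*}
variable {E : Type*} [NormedAddCommGroup E] [NormedSpace ℝ E]
variable {F : Type*} [NormedAddCommGroup F] [NormedSpace ℝ F]

/-- The box `{-M, …, M}^ι`. -/
noncomputable def bpm (ι : Type*) [Fintype ι] [DecidableEq ι] (M : ℕ) : Finset (ι → ℤ) :=
  Fintype.piFinset fun _ => Finset.Icc (-(M : ℤ)) M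

theorem mem_bpm {M : ℕ} {a : ι → ℤ} : a ∈ bpm ι M ↔ ∀ i, |a i| ≤ M := by
  simp [bpm, abs_le]

theorem card_bpm (M : ℕ) : (bpm ι M).card = (2 * M + 1) ^ Fintype.card ι := by
  simp only [bpm, Fintype.card_piFinset, Int.card_Icc, Finset.prod_const, Finset.card_univ]
  congr 1
  omega

open Classical in
/-- The points attached to the node `P` and its ancestors. -/
noncomputable def pts (φ : List α → (ι → ℝ) →ₗ[ℝ] E) (r L M R : ℕ) : List α → Finset E
  | [] => (bpm ι M).image fun a => lam r L ([] : List α) • φ [] (ic a)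
  | a :: P => Finset.image₂ (fun x b => x + lam r L (a :: P) • φ (a :: P) (ic b))
      (pts φ r L M R P) (bpm ι (2 * R))

open Classical in
/-- Words of length at most `n`. -/
noncomputable def words (α : Type*) [Fintype α] : ℕ → Finset (List α)
  | 0 => {[]}
  | n + 1 => insert [] (Finset.image₂ (fun a P => a :: P) (Finset.univ : Finset α) (words α n))

theorem mem_words [Fintype α] {n : ℕ} {P : List α} : P ∈ words α n ↔ P.length ≤ n := by
  classical
  induction n generalizing P with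
  | zero => simp [words]
  | succ n ih =>
    cases P with
    | nil => simp [words]
    | cons a P => simp [words, ih]

theorem card_words [Fintype α] (n : ℕ) : (words α n).card ≤ (Fintype.card α + 1) ^ n := by
  classical
  induction n with
  | zero => simp [words]
  | succ n ih =>
    refine (Finset.card_insert_le _ _).trans ?_
    have h1 := Finset.card_image₂_le (fun (a : α) (P : List α) => a :: P) Finset.univ (words α n)
    rw [Finset.card_univ] at h1
    have h2 : 1 ≤ (Fintype.card α + 1) ^ n := Nat.one_le_pow _ _ (Nat.succ_pos _)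
    calc (Finset.image₂ (fun (a : α) (P : List α) => a :: P) Finset.univ (words α n)).card + 1
        ≤ Fintype.card α * (Fintype.card α + 1) ^ n + (Fintype.card α + 1) ^ n :=
          add_le_add (h1.trans (Nat.mul_le_mul_left _ ih)) h2
      _ = (Fintype.card α + 1) ^ (n + 1) := by ring

open Classical in
/-- The whole point set. -/
noncomputable def XX [Fintype α] (φ : List α → (ι → ℝ) →ₗ[ℝ] E) (r L M R : ℕ) : Finset E :=
  (words α L).biUnion fun P => pts φ r L M R P

theorem card_pts (φ : List α → (ι → ℝ) →ₗ[ℝ] E) (r L M R : ℕ) (P : List α) :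
    (pts φ r L M R P).card
      ≤ (2 * M + 1) ^ Fintype.card ι * ((4 * R + 1) ^ Fintype.card ι) ^ P.length := by
  classical
  induction P with
  | nil =>
    simp only [pts, List.length_nil, pow_zero, mul_one]
    exact Finset.card_image_le.trans (card_bpm M).le
  | cons a P ih =>
    rw [pts, List.length_cons, pow_succ ((4 * R + 1) ^ Fintype.card ι), ← mul_assoc]
    refine (Finset.card_image₂_le _ _ _).trans ?_
    refine Nat.mul_le_mul ih (le_of_eq ?_)
    rw [card_bpm]
    congr 1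
    ring

theorem card_XX [Fintype α] (φ : List α → (ι → ℝ) →ₗ[ℝ] E) (r L M R : ℕ) :
    (XX φ r L M R).card ≤ (Fintype.card α + 1) ^ L *
      ((2 * M + 1) ^ Fintype.card ι * ((4 * R + 1) ^ Fintype.card ι) ^ L) := by
  classical
  refine (Finset.card_biUnion_le).trans ?_
  refine (Finset.sum_le_card_nsmul _ _
    ((2 * M + 1) ^ Fintype.card ι * ((4 * R + 1) ^ Fintype.card ι) ^ L) fun P hP => ?_).trans ?_
  · refine (card_pts φ r L M R P).trans ?_
    refine Nat.mul_le_mul_left _ ?_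
    exact Nat.pow_le_pow_right (pow_pos (Nat.succ_pos _) _) (mem_words.1 hP)
  · rw [smul_eq_mul]
    exact Nat.mul_le_mul_right _ (card_words L)

/-- The sums of box points over the ancestors of `P`. -/
def Base (φ : List α → (ι → ℝ) →ₗ[ℝ] E) (r L R R₀ : ℕ) (x₀ : ι → ℤ) : List α → Set E
  | [] => {x | ∃ a ∈ box ι R₀, x = lam r L ([] : List α) • φ [] (ic (x₀ + a))}
  | a :: P => {x | ∃ y ∈ Base φ r L R R₀ x₀ P, ∃ b ∈ box ι R,
      x = y + lam r L (a :: P) • φ (a :: P) (ic b)}

/-- The top average of `f`. -/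
noncomputable def gtop (φ : List α → (ι → ℝ) →ₗ[ℝ] E) (r L R₀ : ℕ) (x₀ : ι → ℤ) (f : E → F)
    (y : E) : F :=
  bavg R₀ fun a => f (y + lam r L ([] : List α) • φ [] (ic (x₀ + a)))

variable {φ : List α → (ι → ℝ) →ₗ[ℝ] E} {r L R R₀ M : ℕ} {x₀ : ι → ℤ} {f : E → F} {D D' : ℝ}

theorem gtop_lip (hR₀ : 0 < R₀) (hf : ∀ x y, ‖f x - f y‖ ≤ D' * ‖x - y‖) (x y : E) :
    ‖gtop φ r L R₀ x₀ f x - gtop φ r L R₀ x₀ f y‖ ≤ D' * ‖x - y‖ := by
  unfold gtop
  rw [← bavg_sub]
  refine norm_bavg_le hR₀ fun b _ => (hf _ _).trans (le_of_eq ?_)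
  rw [add_sub_add_right_eq_sub]

theorem gtop_topAvg (hf : ∀ x y, ‖f x - f y‖ ≤ D' * ‖x - y‖) :
    TopAvg φ r L R₀ D' (gtop φ r L R₀ x₀ f) := by
  refine ⟨fun y => f (y + lam r L ([] : List α) • φ [] (ic x₀)), fun x y => ?_, fun y => ?_⟩
  · refine (hf _ _).trans (le_of_eq ?_)
    rw [add_sub_add_right_eq_sub]
  · unfold gtop
    congr 1
    funext a
    rw [ic_add, map_add, smul_add]
    congr 1
    abel

theorem GA_le (hR : 0 < R) (hR₀ : 0 < R₀) {X : Set E}
    (hf : ∀ x ∈ X, ∀ y ∈ X, ‖f x - f y‖ ≤ D * ‖x - y‖) (P : List α) (y z : E)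
    (h : ∀ x ∈ Base φ r L R R₀ x₀ P, x + y ∈ X ∧ x + z ∈ X) :
    ‖GA φ r L R (gtop φ r L R₀ x₀ f) P y - GA φ r L R (gtop φ r L R₀ x₀ f) P z‖
      ≤ D * ‖y - z‖ := by
  induction P generalizing y z with
  | nil =>
    simp only [GA, gtop]
    rw [← bavg_sub]
    refine norm_bavg_le hR₀ fun b hb => ?_
    obtain ⟨h1, h2⟩ := h _ ⟨b, hb, rfl⟩
    rw [add_comm y, add_comm z]
    refine (hf _ h1 _ h2).trans (le_of_eq ?_)
    rw [add_sub_add_left_eq_sub]
  | cons a P ih =>
    simp only [GA]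
    rw [← bavg_sub]
    refine norm_bavg_le hR fun b hb => ?_
    refine (ih _ _ fun x hx => ?_).trans (le_of_eq ?_)
    · obtain ⟨h1, h2⟩ := h _ ⟨x, hx, b, hb, rfl⟩
      constructor
      · convert h1 using 1; abel
      · convert h2 using 1; abel
    · rw [add_sub_add_right_eq_sub]

theorem Base_sub (hM : ∀ i, |x₀ i| + R₀ + R ≤ M) (P : List α) {x : E}
    (hx : x ∈ Base φ r L R R₀ x₀ P) {v : ι → ℤ} (hv : ∀ i, |v i| ≤ R) :
    x + lam r L P • φ P (ic v) ∈ pts φ r L M R P := by
  classical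
  induction P generalizing x v with
  | nil =>
    obtain ⟨a, ha, rfl⟩ := hx
    rw [pts, Finset.mem_image]
    refine ⟨x₀ + a + v, ?_, ?_⟩
    · rw [mem_bpm]
      intro i
      have h1 := mem_box.1 ha i
      have h2 := abs_add_three (x₀ i) (a i) (v i)
      have h3 : |a i| ≤ R₀ := by rw [abs_of_nonneg h1.1]; exact h1.2.le
      have h4 := hv i
      have h5 := hM i
      simp only [Pi.add_apply]
      linarith
    · rw [ic_add, map_add, smul_add]
  | cons a P ih =>
    obtain ⟨y, hy, b, hb, rfl⟩ := hx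
    rw [pts, Finset.mem_image₂]
    have h0 := ih hy (v := 0) (fun i => by simp)
    simp only [ic_zero, map_zero, smul_zero, add_zero] at h0
    refine ⟨y, h0, b + v, ?_, ?_⟩
    · rw [mem_bpm]
      intro i
      have h1 := mem_box.1 hb i
      have h2 := abs_add_le (b i) (v i)
      have h3 : |b i| ≤ R := by rw [abs_of_nonneg h1.1]; exact h1.2.le
      have h4 := hv i
      simp only [Pi.add_apply]
      push_cast
      linarith
    · rw [ic_add, map_add, smul_add, add_assoc]

theorem TT_le [Fintype α] (hr : 0 < r) (hR : 0 < R) (hR₀ : 0 < R₀)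
    (hf : ∀ x ∈ XX φ r L M R, ∀ y ∈ XX φ r L M R, ‖f x - f y‖ ≤ D * ‖x - y‖)
    (hM : ∀ i, |x₀ i| + R₀ + R ≤ M) (P : List α) (hP : P.length ≤ L)
    {v : ι → ℤ} (hv : ∀ i, |v i| ≤ R) :
    ‖TT φ r L R (gtop φ r L R₀ x₀ f) P v‖ ≤ D * ‖φ P (ic v)‖ := by
  classical
  have hl : 0 < lam r L P := lam_pos hr P
  have h1 := GA_le (φ := φ) (r := r) (L := L) (R := R) (R₀ := R₀) (x₀ := x₀) (f := f) (D := D)
    hR hR₀ (X := {x | x ∈ XX φ r L M R}) (fun x hx y hy => hf x hx y hy) P
    (lam r L P • φ P (ic v)) 0 (fun x hx => by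
      constructor
      · exact Finset.mem_biUnion.2 ⟨P, mem_words.2 hP, Base_sub hM P hx hv⟩
      · have h := Base_sub hM P hx (v := 0) (fun i => by simp)
        simp only [ic_zero, map_zero, smul_zero] at h
        exact Finset.mem_biUnion.2 ⟨P, mem_words.2 hP, h⟩)
  rw [sub_zero, norm_smul, Real.norm_eq_abs, abs_of_pos hl] at h1
  rw [TT, norm_smul, norm_inv, Real.norm_eq_abs, abs_of_pos hl, inv_mul_le_iff₀ hl]
  linarith

end Vale.Agent.P249.H65
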